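import Vale.Agent.P202.Mixed.Interface
import Vale.Agent.P202.Mixed.Source.Series
import Vale.Agent.P202.Imperfect.Base
import Mathlib.RingTheory.WittVector.Complete
import Mathlib.RingTheory.WittVector.DiscreteValuationRing

/-!
# P202 mixed characteristic: flatness of power series over Witt vectors

`C[[X]] → W(L)[[X']]` is flat: `p` and distinct variables form a regular sequence in the target, so
their relations are the trivial ones.
-/

noncomputable section

namespace Vale.Agent.P202.Mixed.Cohen

open IsLocalRing

universe u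

theorem maximalIdeal_witt (p : ℕ) [Fact p.Prime] (L : Type*) [Field L] [CharP L p]
    [PerfectRing L p] : maximalIdeal (WittVector p L) = Ideal.span {(p : WittVector p L)} :=
  (WittVector.irreducible p).maximalIdeal_eq

theorem isAdicComplete_witt (p : ℕ) [Fact p.Prime] (L : Type*) [Field L] [CharP L p]
    [PerfectRing L p] : IsAdicComplete (maximalIdeal (WittVector p L)) (WittVector p L) :=
  (maximalIdeal_witt p L).symm ▸ inferInstance

/-- The maximal ideal of power series over a local ring with principal maximal ideal. -/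
theorem maximalIdeal_series {R : Type*} [CommRing R] [IsLocalRing R] {a : R}
    (ha : maximalIdeal R = Ideal.span {a}) (m : ℕ) :
    maximalIdeal (MvPowerSeries (Fin m) R) =
      Ideal.span (Set.range (Fin.cons (MvPowerSeries.C a) MvPowerSeries.X :
        Fin (m + 1) → MvPowerSeries (Fin m) R)) := by
  rw [Fin.range_cons]
  refine le_antisymm (fun F hF => ?_) ?_
  · have hc : MvPowerSeries.constantCoeff F ∈ maximalIdeal R := (mem_maximalIdeal _).2 fun h =>
      (mem_maximalIdeal F).1 hF (MvPowerSeries.isUnit_iff_constantCoeff.2 h)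
    rw [ha, Ideal.mem_span_singleton'] at hc
    obtain ⟨c, hc⟩ := hc
    rw [← sub_add_cancel F (MvPowerSeries.C (MvPowerSeries.constantCoeff F))]
    refine add_mem (Ideal.span_mono (Set.subset_insert _ _) (sub_C_constantCoeff_mem_span_X F)) ?_
    rw [← hc, map_mul]
    exact Ideal.mul_mem_left _ _ (Ideal.subset_span (Set.mem_insert _ _))
  · rw [Ideal.span_le, Set.insert_subset_iff]
    refine ⟨(mem_maximalIdeal _).2 fun h => ?_, ?_⟩
    · have h1 : IsUnit a := by simpa using MvPowerSeries.isUnit_iff_constantCoeff.1 h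
      exact (mem_maximalIdeal a).1 (ha ▸ Ideal.mem_span_singleton_self a) h1
    · rintro _ ⟨i, rfl⟩
      exact (mem_maximalIdeal _).2 fun h => by
        simpa using MvPowerSeries.isUnit_iff_constantCoeff.1 h

theorem seriesFlatStatement : SeriesFlatStatement.{u} := by
  intro p _ C _ _ hC L _ _ _ m m' θ hθ emb hemb
  classical
  have := hC.noetherian
  have := isAdicComplete_witt p L
  let V := MvPowerSeries (Fin m) C
  let S := MvPowerSeries (Fin m') (WittVector p L)
  have : IsAdicComplete (maximalIdeal S) S := isAdicComplete_mvPowerSeries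
  have hXm : ∀ i, (MvPowerSeries.X (emb i) : S) ∈ maximalIdeal S := fun i =>
    (mem_maximalIdeal _).2 fun h => by simpa using MvPowerSeries.isUnit_iff_constantCoeff.1 h
  obtain ⟨ψ, hψC, hψX, -⟩ := exists_evalHom θ (fun i => (MvPowerSeries.X (emb i) : S)) hXm
  refine ⟨ψ, hψC, hψX, ?_⟩
  set x₀ : Fin (m + 1) → V := Fin.cons (MvPowerSeries.C (p : C)) MvPowerSeries.X with hx₀
  have hmax : maximalIdeal V = Ideal.span (Set.range x₀) := maximalIdeal_series hC.max_eq m
  have hψp : ψ (MvPowerSeries.C (p : C)) = (p : S) := by rw [hψC, map_natCast]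
  have hloc : IsLocalHom ψ := by
    refine ((IsLocalRing.local_hom_TFAE ψ).out 0 2).2 ?_
    rw [hmax, Ideal.map_span, Ideal.span_le, hx₀, Fin.range_cons, Set.image_insert_eq,
      Set.insert_subset_iff]
    refine ⟨?_, ?_⟩
    · rw [hψC]
      exact (mem_maximalIdeal _).2 (hθ _ (hC.max_eq ▸ Ideal.mem_span_singleton_self _))
    · rintro _ ⟨_, ⟨i, rfl⟩, rfl⟩
      rw [hψX]
      exact hXm i
  algebraize [ψ]
  have : IsLocalHom (algebraMap V S) := hloc
  show Module.Flat V S
  refine Imperfect.flat_of_trivialOn_maximalIdeal (W := S) hmax.symm fun x hx => ?_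
  have hsmul : ∀ (a : V) (y : S), a • y = ψ a * y := fun a y => rfl
  -- reduction modulo `p`
  let red : S →+* MvPowerSeries (Fin m') L :=
    MvPowerSeries.map (WittVector.constantCoeff : WittVector p L →+* L)
  have hred : Function.Surjective red := fun F =>
    ⟨fun t => WittVector.teichmuller p (MvPowerSeries.coeff t F), by
      ext t
      exact WittVector.teichmuller_coeff_zero p _⟩
  have hker : ∀ F, red F = 0 → ∃ q, F = (p : S) * q := by
    intro F hF
    have h : ∀ t, (p : WittVector p L) ∣ MvPowerSeries.coeff t F := fun t => by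
      rw [← Ideal.mem_span_singleton, ← WittVector.ker_constantCoeff, RingHom.mem_ker]
      exact (MvPowerSeries.coeff_map _ _ _).symm.trans (by rw [show MvPowerSeries.map _ F = 0 from hF, map_zero])
    choose q hq using h
    let Q : S := q
    refine ⟨Q, ?_⟩
    ext1 t
    rw [← map_natCast (MvPowerSeries.C (σ := Fin m'))]
    exact (hq t).trans (MvPowerSeries.coeff_C_mul t Q (p : WittVector p L)).symm
  have hpS : (p : S) ≠ 0 := fun h => by
    have := congrArg MvPowerSeries.constantCoeff h
    rw [map_natCast, map_zero] at this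
    exact WittVector.p_nonzero p L this
  rw [Fin.sum_univ_succ] at hx
  simp only [hsmul, hx₀, Fin.cons_zero, Fin.cons_succ, hψp, hψX] at hx
  have hrel : ∑ i, MvPowerSeries.X (emb i) * red (x i.succ) = 0 := by
    have h := congrArg red hx
    have hp0 : ((p : ℕ) : MvPowerSeries (Fin m') L) = 0 := by
      rw [← map_natCast (MvPowerSeries.C (σ := Fin m') (R := L)), CharP.cast_eq_zero L p, map_zero]
    rw [map_add, map_mul, map_natCast, hp0, zero_mul, zero_add, map_sum, map_zero] at h
    rw [← h]
    exact Finset.sum_congr rfl fun i _ => by rw [map_mul, MvPowerSeries.map_X]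
  have hredX : ∀ i, red (MvPowerSeries.X i) = MvPowerSeries.X i := fun i =>
    MvPowerSeries.map_X _ _
  have hspan := Imperfect.mem_span_koszulVec emb hemb (fun i => red (x i.succ)) hrel
  have hlift : ∀ z ∈ Submodule.span (MvPowerSeries (Fin m') L)
      (Set.range fun q : Fin m × Fin m => Imperfect.koszulVec emb q.1 q.2),
      ∃ u ∈ Imperfect.trivRel S (M := S) x₀,
        (∀ i, red (u i.succ) = z i) ∧ ∑ i, x₀ i • u i = 0 := by
    intro z hz
    induction hz using Submodule.span_induction with
    | mem z hz =>
      obtain ⟨⟨i, j⟩, rfl⟩ := hz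
      let a : Fin (m + 1) → V := Fin.cons 0 fun l =>
        (if l = i then MvPowerSeries.X j else 0) - (if l = j then MvPowerSeries.X i else 0)
      have ha : ∑ l, x₀ l * a l = 0 := by
        rw [Fin.sum_univ_succ]
        simp [hx₀, a, mul_sub, mul_comm]
      refine ⟨fun l => a l • (1 : S), Imperfect.smul_mem_trivRel a 1 ha, fun l => ?_, ?_⟩
      · simp only [hsmul, a, Fin.cons_succ, mul_one, map_sub,
          apply_ite (ψ : V → S), apply_ite (red : S → MvPowerSeries (Fin m') L), map_zero, hψX,
          Imperfect.koszulVec, hredX]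
      · simp only [← smul_assoc, smul_eq_mul, ← Finset.sum_smul, ha, zero_smul]
    | zero => exact ⟨0, zero_mem _, by simp, by simp⟩
    | add z z' _ _ hz hz' =>
      obtain ⟨u, hu, hu', hu''⟩ := hz
      obtain ⟨v, hv, hv', hv''⟩ := hz'
      exact ⟨u + v, add_mem hu hv, fun i => by simp [hu', hv'],
        by simp [Finset.sum_add_distrib, mul_add, hsmul] at hu'' hv'' ⊢; rw [hu'', hv'', add_zero]⟩
    | smul c z _ hz =>
      obtain ⟨u, hu, hu', hu''⟩ := hz
      obtain ⟨c, rfl⟩ := hred c
      refine ⟨c • u, Submodule.smul_mem _ _ hu, fun i => by simp [hu'], ?_⟩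
      simp only [Pi.smul_apply, smul_comm _ c, ← Finset.smul_sum, hu'', smul_zero]
  obtain ⟨u, hu, hu', hu''⟩ := hlift _ hspan
  choose q hq using fun i : Fin m => hker (x i.succ - u i.succ) (by rw [map_sub, hu', sub_self])
  rw [Fin.sum_univ_succ] at hu''
  simp only [hsmul, hx₀, Fin.cons_zero, Fin.cons_succ, hψp, hψX] at hu''
  have h0 : x 0 - u 0 = -∑ i, MvPowerSeries.X (emb i) * q i := by
    refine mul_left_cancel₀ hpS ?_
    rw [mul_sub, mul_neg, Finset.mul_sum, eq_neg_iff_add_eq_zero]
    have he : ∑ i, (p : S) * (MvPowerSeries.X (emb i) * q i) =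
        ∑ i, MvPowerSeries.X (emb i) * x i.succ - ∑ i, MvPowerSeries.X (emb i) * u i.succ := by
      rw [← Finset.sum_sub_distrib]
      exact Finset.sum_congr rfl fun i _ => by rw [← mul_sub, hq]; ring
    rw [he]
    linear_combination hx - hu''
  let w : Fin m → Fin (m + 1) → V := fun i =>
    Fin.cons (-MvPowerSeries.X i) fun l => if l = i then MvPowerSeries.C (p : C) else 0
  have hw : ∀ i, ∑ l, x₀ l * w i l = 0 := fun i => by
    rw [Fin.sum_univ_succ]
    simp [hx₀, w]
    ring
  have hdec : x = u + ∑ i, q i • (fun l => w i l • (1 : S)) := funext fun l => by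
    simp only [Pi.add_apply, Finset.sum_apply, Pi.smul_apply, hsmul, mul_one, smul_eq_mul]
    induction l using Fin.cases with
    | zero =>
      simp only [w, Fin.cons_zero, map_neg, hψX]
      rw [← sub_eq_iff_eq_add', h0, ← Finset.sum_neg_distrib]
      exact Finset.sum_congr rfl fun i _ => by ring
    | succ l =>
      simp only [w, Fin.cons_succ, apply_ite (ψ : V → S), map_zero, hψp, mul_ite, mul_zero,
        Finset.sum_ite_eq, Finset.mem_univ, if_true]
      rw [← sub_eq_iff_eq_add', hq l, mul_comm]
  rw [hdec]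
  exact add_mem hu (Submodule.sum_mem _ fun i _ => Submodule.smul_mem _ _
    (Imperfect.smul_mem_trivRel (w i) 1 (hw i)))

end Vale.Agent.P202.Mixed.Cohen
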