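import Vale.Agent.P202.Mixed.Cohen.Ring
import Vale.Agent.P202.Mixed.Cohen.SeriesFlat
import Vale.Agent.P202.Reduce.Gonflement
import Vale.Agent.P202.Reduce.FlatInvariant

/-!
# P202 mixed characteristic: covers with algebraically closed residue field
-/

noncomputable section

namespace Vale.Agent.P202.Mixed.Cohen

open IsLocalRing

universe u

theorem coverStatement : CoverStatement.{u} := by
  intro p _ S _ _ _ hp
  let A := AdicCompletion (maximalIdeal S) S
  have hpA : (p : A) ∈ maximalIdeal A := by
    rw [AdicCompletion.maximalIdeal_eq_map, ← map_natCast (algebraMap S A)]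
    exact Ideal.mem_map_of_mem _ hp
  have : CharP (ResidueField A) p := by
    refine (CharP.charP_iff_prime_eq_zero (Fact.out : p.Prime)).2 ?_
    rw [← map_natCast (residue A)]
    exact (residue_eq_zero_iff _).2 hpA
  obtain ⟨C, iC, iCl, hC, ⟨e⟩⟩ := cohenStatement.{u} p (ResidueField A)
  have := hC.noetherian
  obtain ⟨fC, -, hfC⟩ := hC.exists_hom A e.toRingHom
  obtain ⟨n, x, hx⟩ := Submodule.fg_iff_exists_fin_generating_family.1
    (IsNoetherian.noetherian (maximalIdeal S))
  have hmax : maximalIdeal A = Ideal.span (Set.range fun i => algebraMap S A (x i)) := by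
    refine AdicCompletion.maximalIdeal_eq_map.trans
      ((congrArg (Ideal.map (algebraMap S A)) hx).symm.trans ?_)
    show Ideal.map (algebraMap S A) (Ideal.span (Set.range x)) = _
    rw [Ideal.map_span, ← Set.range_comp]
    rfl
  obtain ⟨φ, hφC, hφX, -⟩ := exists_evalHom fC (fun i => algebraMap S A (x i))
    fun i => hmax ▸ Ideal.subset_span (Set.mem_range_self i)
  have hφs : Function.Surjective φ := surjective_powerSeriesHom φ (fun a => by
    obtain ⟨c, hc⟩ := residue_surjective (e.symm (residue A a))
    refine ⟨c, ?_⟩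
    rw [← residue_eq_zero_iff, map_sub, hφC, hfC, hc]
    simp) (by simpa only [hφX] using hmax)
  let L := AlgebraicClosure (ResidueField A)
  have : CharP L p :=
    charP_of_injective_algebraMap (algebraMap (ResidueField A) L).injective p
  have : PerfectRing L p := PerfectField.toPerfectRing p
  have := isAdicComplete_witt p L
  let eW : ResidueField (WittVector p L) ≃+* L :=
    (Ideal.quotEquivOfEq (maximalIdeal_witt p L)).trans WittVector.quotientPEquiv
  obtain ⟨θ₀, hθl, -⟩ := hC.exists_hom (WittVector p L)
    (eW.symm.toRingHom.comp ((algebraMap (ResidueField A) L).comp e.toRingHom))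
  let S' := MvPowerSeries (Fin n) (WittVector p L)
  obtain ⟨ψ, hψC, hψX, hψf⟩ := seriesFlatStatement.{u} p C hC L n n
    (MvPowerSeries.C.comp θ₀)
    (fun a ha hu => (mem_maximalIdeal a).1 ha (hθl.map_nonunit a (by
      simpa using MvPowerSeries.isUnit_iff_constantCoeff.1 hu))) id Function.injective_id
  let I : Ideal (MvPowerSeries (Fin n) C) := RingHom.ker φ
  let B := S' ⧸ I.map ψ
  let g : S' →+* L := eW.toRingHom.comp ((residue (WittVector p L)).comp MvPowerSeries.constantCoeff)
  have hgs : Function.Surjective g := fun l => by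
    obtain ⟨r, hr⟩ := residue_surjective (eW.symm l)
    refine ⟨MvPowerSeries.C r, ?_⟩
    show eW (residue _ (MvPowerSeries.constantCoeff (MvPowerSeries.C r))) = l
    rw [MvPowerSeries.constantCoeff_C, hr, eW.apply_symm_apply]
  have hkg := IsLocalRing.ker_eq_maximalIdeal g hgs
  have hmS' := maximalIdeal_series (maximalIdeal_witt p L) n
  have hmV := maximalIdeal_series hC.max_eq n
  have hψm : (maximalIdeal (MvPowerSeries (Fin n) C)).map ψ ≤ maximalIdeal S' := by
    rw [hmV, Ideal.map_span, hmS']
    refine Ideal.span_mono ?_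
    rintro _ ⟨_, ⟨i, rfl⟩, rfl⟩
    induction i using Fin.cases with
    | zero => exact ⟨0, by rw [Fin.cons_zero, Fin.cons_zero, hψC, RingHom.comp_apply,
        map_natCast θ₀]⟩
    | succ i => exact ⟨i.succ, by simp [hψX]⟩
  have hIm : I.map ψ ≤ maximalIdeal S' := (Ideal.map_mono
    (le_maximalIdeal (RingHom.ker_ne_top φ))).trans hψm
  have : Nontrivial B := Ideal.Quotient.nontrivial_iff.2 fun h =>
    (maximalIdeal.isMaximal S').ne_top (top_le_iff.1 (h ▸ hIm))
  have : IsLocalRing B := .of_surjective' _ Ideal.Quotient.mk_surjective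
  have : IsLocalHom (algebraMap S' B) := .of_surjective _ Ideal.Quotient.mk_surjective
  have : IsAdicComplete (maximalIdeal S') S' := isAdicComplete_mvPowerSeries
  have : IsAdicComplete (maximalIdeal B) B := isAdicComplete_maximalIdeal_of_finite S' B
  let gB : B →+* L := Ideal.Quotient.lift _ g fun a ha => by
    have := hIm ha
    rwa [← hkg, RingHom.mem_ker] at this
  have hgBs : Function.Surjective gB := fun l => by
    obtain ⟨a, rfl⟩ := hgs l
    exact ⟨Ideal.Quotient.mk _ a, rfl⟩
  let fA : A →+* B := (Ideal.quotientMap (I.map ψ) ψ Ideal.le_comap_map).comp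
    (RingHom.quotientKerEquivOfSurjective hφs).symm.toRingHom
  have hfA : ∀ F, fA (φ F) = Ideal.Quotient.mk _ (ψ F) := fun F => by
    have : (RingHom.quotientKerEquivOfSurjective hφs).symm (φ F) = Ideal.Quotient.mk I F :=
      (RingEquiv.symm_apply_eq _).2 rfl
    simp only [fA, RingHom.comp_apply, RingEquiv.toRingHom_eq_coe, RingHom.coe_coe, this]
    rfl
  have hfAf : fA.Flat :=
    (RingHom.Flat.of_bijective (RingHom.quotientKerEquivOfSurjective hφs).symm.bijective).comp
      (flat_quotient_map ψ hψf I)
  let f : S →+* B := fA.comp (algebraMap S A)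
  have hmB : maximalIdeal B = (maximalIdeal S').map (Ideal.Quotient.mk (I.map ψ)) :=
    (IsLocalRing.map_maximalIdeal_of_surjective _ Ideal.Quotient.mk_surjective).symm
  have hfm : (maximalIdeal S).map f = maximalIdeal B := by
    rw [← Ideal.map_map, ← AdicCompletion.maximalIdeal_eq_map]
    refine le_antisymm ?_ ?_
    · rw [hmax, Ideal.map_span, Ideal.span_le, hmB]
      rintro _ ⟨_, ⟨i, rfl⟩, rfl⟩
      simp only [← hφX, hfA, hψX]
      exact Ideal.mem_map_of_mem _ (hmS' ▸ Ideal.subset_span ⟨i.succ, by simp⟩)
    · rw [hmB, hmS', Ideal.map_span, Ideal.span_le]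
      rintro _ ⟨_, ⟨i, rfl⟩, rfl⟩
      induction i using Fin.cases with
      | zero =>
        simp only [Fin.cons_zero]
        rw [map_natCast (MvPowerSeries.C (σ := Fin n) (R := WittVector p L)),
          map_natCast (Ideal.Quotient.mk (I.map ψ)), ← map_natCast fA]
        exact Ideal.mem_map_of_mem _ hpA
      | succ i =>
        simp only [Fin.cons_succ]
        have h := hψX i
        rw [id_eq] at h
        rw [← h, ← hfA, hφX]
        exact Ideal.mem_map_of_mem _ (hmax ▸ Ideal.subset_span ⟨i, rfl⟩)
  refine ⟨B, inferInstance, inferInstance, inferInstance, inferInstance, f, ?_, ?_, ?_, hfm⟩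
  · exact IsAlgClosed.of_ringEquiv L _ ((Ideal.quotEquivOfEq
      (IsLocalRing.ker_eq_maximalIdeal gB hgBs).symm).trans
        (RingHom.quotientKerEquivOfSurjective hgBs)).symm
  · exact ((IsLocalRing.local_hom_TFAE f).out 0 2).2 hfm.le
  · exact (RingHom.flat_algebraMap_iff.2 inferInstance : (algebraMap S A).Flat).comp hfAf

end Vale.Agent.P202.Mixed.Cohen
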