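import Vale.Agent.P202.Mixed.Cohen.Thicken
import Vale.Agent.P202.Mixed.Interface
import Mathlib.RingTheory.WittVector.Complete
import Mathlib.RingTheory.WittVector.DiscreteValuationRing

/-!
# P202 mixed characteristic: Cohen rings

For a field `k` inside a perfect field `L` and a free generating set `B` of `k` over its `p`-th
powers, the Cohen ring is the ring of Witt vectors `w` of `L` such that modulo each `p ^ (n + 1)`
the vector `w` lies in the subring generated by the `p ^ n`-th powers and the Teichmüller lifts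
of `B`.
-/

noncomputable section

namespace Vale.Agent.P202.Mixed.Cohen

open IsLocalRing

universe u

variable {p : ℕ} [Fact p.Prime] {k L : Type u} [Field k] [CharP k p] [Field L] [CharP L p]
  [PerfectRing L p] (ι : k →+* L) (B : Set k)

/-- The Witt vectors with residue in `k`. -/
def wittSub : Subring (WittVector p L) := ι.range.comap (WittVector.constantCoeff : WittVector p L →+* L)

/-- The residue map. -/
def resV : wittSub (p := p) ι →+* k :=
  (RingEquiv.ofBijective ι.rangeRestrict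
      ⟨fun _ _ h => ι.injective (congrArg Subtype.val h), ι.rangeRestrict_surjective⟩).symm
    |>.toRingHom.comp
      (((WittVector.constantCoeff : WittVector p L →+* L).comp (wittSub (p := p) ι).subtype).codRestrict
        ι.range fun v => v.2)

omit [CharP k p] [CharP L p] [PerfectRing L p] in
theorem iota_resV (v : wittSub (p := p) ι) :
    ι (resV ι v) = WittVector.constantCoeff (v : WittVector p L) :=
  congrArg Subtype.val ((RingEquiv.ofBijective ι.rangeRestrict
      ⟨fun _ _ h => ι.injective (congrArg Subtype.val h),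
        ι.rangeRestrict_surjective⟩).apply_symm_apply ⟨_, v.2⟩)

/-- The Teichmüller lift. -/
def teichV (a : k) : wittSub (p := p) ι :=
  ⟨WittVector.teichmuller p (ι a), ⟨a, (WittVector.teichmuller_coeff_zero p (ι a)).symm⟩⟩

theorem resV_teichV (a : k) : resV ι (teichV (p := p) ι a) = a :=
  ι.injective ((iota_resV ι _).trans (WittVector.teichmuller_coeff_zero p (ι a)))

omit [PerfectRing L p] in
theorem p_ne_zero : (p : WittVector p L) ≠ 0 := WittVector.p_nonzero p L

theorem p_dvd_iff {w : WittVector p L} : (p : WittVector p L) ∣ w ↔ WittVector.constantCoeff w = 0 := by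
  rw [← Ideal.mem_span_singleton, ← WittVector.ker_constantCoeff, RingHom.mem_ker]

theorem resV_eq_zero_iff {v : wittSub (p := p) ι} : resV ι v = 0 ↔ (p : WittVector p L) ∣ v := by
  rw [p_dvd_iff, ← iota_resV, map_eq_zero ι]

/-- Congruences modulo `p ^ (n + 1)`. -/
def lvl (n : ℕ) : Ideal (wittSub (p := p) ι) :=
  (Ideal.span {(p : WittVector p L) ^ (n + 1)}).comap (wittSub ι).subtype

omit [CharP k p] [CharP L p] [PerfectRing L p] in
theorem mem_lvl {n : ℕ} {v : wittSub (p := p) ι} :
    v ∈ lvl ι n ↔ (p : WittVector p L) ^ (n + 1) ∣ (v : WittVector p L) :=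
  Ideal.mem_span_singleton

theorem lvl_le {i n : ℕ} (h : i ≤ n) : lvl (p := p) ι n ≤ lvl ι i := fun v hv => by
  rw [mem_lvl] at hv ⊢
  exact (pow_dvd_pow _ (by omega)).trans hv

theorem lvl_le_ker (n : ℕ) : lvl (p := p) ι n ≤ RingHom.ker (resV ι) := fun v hv => by
  rw [RingHom.mem_ker, resV_eq_zero_iff]
  exact (dvd_pow_self _ n.succ_ne_zero).trans ((mem_lvl ι).1 hv)

/-- The residue map modulo `p ^ (n + 1)`. -/
def resP (n : ℕ) : wittSub (p := p) ι ⧸ lvl ι n →+* k :=
  Ideal.Quotient.lift (lvl ι n) (resV ι) fun _ hv => lvl_le_ker ι n hv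

@[simp]
theorem resP_mk (n : ℕ) (v : wittSub (p := p) ι) :
    resP ι n (Ideal.Quotient.mk _ v) = resV ι v := rfl

theorem resP_surjective (n : ℕ) : Function.Surjective (resP (p := p) ι n) := fun a =>
  ⟨Ideal.Quotient.mk _ (teichV ι a), resV_teichV ι a⟩

theorem resP_ker_pow (n : ℕ) : RingHom.ker (resP (p := p) ι n) ^ (n + 1) = ⊥ := by
  have h : RingHom.ker (resP (p := p) ι n) =
      (RingHom.ker (resV ι)).map (Ideal.Quotient.mk (lvl ι n)) :=
    Ideal.ker_quotient_lift _ _
  rw [h, ← Ideal.map_pow, Ideal.map_eq_bot_iff_le_ker, Ideal.mk_ker]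
  have h1 : RingHom.ker (resV (p := p) ι) ≤
      (Ideal.span {(p : WittVector p L)}).comap (wittSub ι).subtype := fun v hv =>
    Ideal.mem_span_singleton.2 ((resV_eq_zero_iff ι).1 hv)
  refine (Ideal.pow_right_mono h1 _).trans ((Ideal.le_comap_pow _ _).trans ?_)
  rw [Ideal.span_singleton_pow]
  exact le_rfl

theorem resP_regular {n i : ℕ} (hi : i ≤ n) (x z : wittSub (p := p) ι ⧸ lvl ι n)
    (h : (p : wittSub (p := p) ι ⧸ lvl ι n) ^ i * x =
      (p : wittSub (p := p) ι ⧸ lvl ι n) ^ (i + 1) * z) :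
    resP ι n x = 0 := by
  obtain ⟨v, rfl⟩ := Ideal.Quotient.mk_surjective x
  obtain ⟨w, rfl⟩ := Ideal.Quotient.mk_surjective z
  simp only [← map_natCast (Ideal.Quotient.mk (lvl (p := p) ι n)), ← map_pow, ← map_mul,
    Ideal.Quotient.eq, mem_lvl] at h
  simp only [AddSubgroupClass.coe_sub, MulMemClass.coe_mul, SubmonoidClass.coe_pow,
    SubringClass.coe_natCast] at h
  rw [show n + 1 = i + (n - i + 1) by omega, pow_add,
    show (p : WittVector p L) ^ i * v - (p : WittVector p L) ^ (i + 1) * w = (p : WittVector p L) ^ i * (v - p * w) by ring,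
    mul_dvd_mul_iff_left (pow_ne_zero _ p_ne_zero)] at h
  rw [resP_mk, resV_eq_zero_iff]
  have h2 := (dvd_pow_self (p : WittVector p L) (Nat.succ_ne_zero (n - i))).trans h
  simpa using dvd_add h2 (dvd_mul_right (p : WittVector p L) w)

/-- The marked lifts modulo `p ^ (n + 1)`. -/
def betaP (n : ℕ) (b : k) : wittSub (p := p) ι ⧸ lvl ι n :=
  Ideal.Quotient.mk _ (teichV ι b)

/-- The truncated Cohen rings. -/
def lvlRing (n : ℕ) : Subring (wittSub (p := p) ι ⧸ lvl ι n) := gen p B (betaP ι n) n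

/-- The Cohen ring. -/
def cohenRing : Subring (wittSub (p := p) ι) :=
  ⨅ n, (lvlRing ι B n).comap (Ideal.Quotient.mk (lvl ι n))

omit [CharP k p] [CharP L p] [PerfectRing L p] in
theorem mem_cohenRing {v : wittSub (p := p) ι} :
    v ∈ cohenRing ι B ↔ ∀ n, Ideal.Quotient.mk (lvl ι n) v ∈ lvlRing ι B n := by
  simp [cohenRing, Subring.mem_iInf]

theorem teichV_mem {b : k} (hb : b ∈ B) : teichV ι b ∈ cohenRing (p := p) ι B :=
  (mem_cohenRing ι B).2 fun _ => beta_mem_gen hb

variable {B}

section Levels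

variable (hspan : ∀ x, x ∈ pClosure p B)
include hspan

theorem factor_lvlRing_eq (n : ℕ) :
    (lvlRing (p := p) ι B (n + 1)).map (Ideal.Quotient.factor (lvl_le ι n.le_succ)) =
      lvlRing ι B n := by
  refine le_antisymm ?_ ?_
  · rw [lvlRing, gen, RingHom.map_closure, Subring.closure_le]
    rintro _ ⟨y, ⟨x, rfl⟩ | ⟨b, hb, rfl⟩, rfl⟩
    · rw [map_pow, pow_succ' p, pow_mul]
      exact pow_mem_gen _
    · rw [betaP, Ideal.Quotient.factor_mk]
      exact beta_mem_gen hb
  · refine (Subring.closure_le).2 ?_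
    rintro _ (⟨x, rfl⟩ | ⟨b, hb, rfl⟩)
    · obtain ⟨u, hu, hres⟩ := exists_mem_gen (n := n + 1) (resP_surjective (p := p) ι (n + 1))
        (β := betaP ι (n + 1)) (B := B) (fun b _ => resV_teichV ι b) hspan (resP ι n x)
      refine ⟨u ^ p ^ n, Subring.pow_mem _ hu _, ?_⟩
      rw [map_pow]
      refine pow_eq (resP_ker_pow ι n) ?_
      rw [← hres]
      obtain ⟨v, rfl⟩ := Ideal.Quotient.mk_surjective u
      rw [Ideal.Quotient.factor_mk, resP_mk, resP_mk]
    · exact ⟨betaP ι (n + 1) b, beta_mem_gen hb, Ideal.Quotient.factor_mk _ _⟩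

theorem mk_mem_of_succ {n : ℕ} {v : wittSub (p := p) ι}
    (hv : Ideal.Quotient.mk (lvl ι (n + 1)) v ∈ lvlRing ι B (n + 1)) :
    Ideal.Quotient.mk (lvl ι n) v ∈ lvlRing ι B n := by
  rw [← factor_lvlRing_eq ι hspan n]
  exact ⟨_, hv, Ideal.Quotient.factor_mk _ _⟩

theorem exists_res_eq (a : k) : ∃ c ∈ cohenRing (p := p) ι B, resV ι c = a := by
  have h0 : ∃ v, Ideal.Quotient.mk (lvl (p := p) ι 0) v ∈ lvlRing ι B 0 ∧ resV ι v = a := by
    obtain ⟨u, hu, hres⟩ := exists_mem_gen (n := 0) (resP_surjective (p := p) ι 0)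
      (β := betaP ι 0) (B := B) (fun b _ => resV_teichV ι b) hspan a
    obtain ⟨v, rfl⟩ := Ideal.Quotient.mk_surjective u
    exact ⟨v, hu, hres⟩
  have hstep : ∀ n, ∀ v, Ideal.Quotient.mk (lvl (p := p) ι n) v ∈ lvlRing ι B n →
      ∃ v', Ideal.Quotient.mk (lvl ι (n + 1)) v' ∈ lvlRing ι B (n + 1) ∧ v' - v ∈ lvl ι n := by
    intro n v hv
    rw [← factor_lvlRing_eq ι hspan n] at hv
    obtain ⟨u, hu, he⟩ := hv
    obtain ⟨v', rfl⟩ := Ideal.Quotient.mk_surjective u
    rw [Ideal.Quotient.factor_mk, Ideal.Quotient.eq] at he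
    exact ⟨v', hu, he⟩
  choose v₀ hv₀ hres₀ using h0
  choose step hstep₁ hstep₂ using hstep
  let seq : (n : ℕ) → {v // Ideal.Quotient.mk (lvl (p := p) ι n) v ∈ lvlRing ι B n} :=
    fun n => Nat.rec ⟨v₀, hv₀⟩ (fun n ih => ⟨step n ih.1 ih.2, hstep₁ n ih.1 ih.2⟩) n
  have hs : ∀ n, (seq (n + 1)).1 - (seq n).1 ∈ lvl ι n := fun n => hstep₂ n _ _
  let x : ℕ → WittVector p L := fun n => ((seq n).1 : WittVector p L)
  have hx : ∀ i n, i ≤ n → (p : WittVector p L) ^ (i + 1) ∣ x n - x i := by
    intro i n h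
    induction n, h using Nat.le_induction with
    | base => simp
    | succ n hin ih =>
      have h2 := (pow_dvd_pow _ (by omega : i + 1 ≤ n + 1)).trans ((mem_lvl ι).1 (hs n))
      simpa [x] using dvd_add h2 ih
  obtain ⟨w, hw⟩ := IsPrecomplete.prec (I := Ideal.span {(p : WittVector p L)}) (M := WittVector p L) inferInstance
    (f := x) fun {i n} hin => by
      rw [SModEq.sub_mem, smul_eq_mul, Ideal.mul_top, Ideal.span_singleton_pow,
        Ideal.mem_span_singleton, ← dvd_neg, neg_sub]
      exact (pow_dvd_pow _ i.le_succ).trans (hx i n hin)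
  have hwn : ∀ n, (p : WittVector p L) ^ (n + 1) ∣ w - x n := fun n => by
    have h1 := hw (n + 1)
    rw [SModEq.sub_mem, smul_eq_mul, Ideal.mul_top, Ideal.span_singleton_pow,
      Ideal.mem_span_singleton, ← dvd_neg, neg_sub] at h1
    simpa using dvd_add h1 (hx n (n + 1) n.le_succ)
  have hw0 : WittVector.constantCoeff w = WittVector.constantCoeff (x 0) := by
    have := hwn 0
    rwa [zero_add, pow_one, p_dvd_iff, map_sub, sub_eq_zero] at this
  have hwV : w ∈ wittSub ι := by
    show WittVector.constantCoeff w ∈ ι.range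
    rw [hw0]
    exact (seq 0).1.2
  refine ⟨⟨w, hwV⟩, (mem_cohenRing ι B).2 fun n => ?_, ?_⟩
  · rw [show Ideal.Quotient.mk (lvl ι n) ⟨w, hwV⟩ = Ideal.Quotient.mk (lvl ι n) (seq n).1 by
      rw [Ideal.Quotient.eq, mem_lvl]
      exact hwn n]
    exact (seq n).2
  · rw [← hres₀]
    exact ι.injective (by rw [iota_resV, iota_resV]; exact hw0)

variable (hB : PFree p B)
include hB

/-- The Cohen ring is saturated for `p`. -/
theorem exists_of_p_mul {c : wittSub (p := p) ι} (hc : c ∈ cohenRing ι B) {w : WittVector p L}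
    (hw : (c : WittVector p L) = p * w) : ∃ d ∈ cohenRing (p := p) ι B, (d : WittVector p L) = w := by
  have hn : ∀ n, ∃ u, Ideal.Quotient.mk (lvl (p := p) ι n) u ∈ lvlRing ι B n ∧
      (p : WittVector p L) ^ (n + 1) ∣ w - u := by
    intro n
    have h0 : resP ι (n + 1) (Ideal.Quotient.mk _ c) = 0 := by
      rw [resP_mk, resV_eq_zero_iff]
      exact ⟨w, hw⟩
    obtain ⟨z, hz, he⟩ := exists_pow_mul_eq (resP_surjective (p := p) ι (n + 1))
      (resP_ker_pow ι (n + 1)) (β := betaP ι (n + 1)) (fun b _ => resV_teichV ι b) hB hspan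
      (Nat.zero_le (n + 1)) ((mem_cohenRing ι B).1 hc (n + 1)) h0
    obtain ⟨u, rfl⟩ := Ideal.Quotient.mk_surjective z
    refine ⟨u, mk_mem_of_succ ι hspan hz, ?_⟩
    rw [pow_zero, one_mul, pow_one, ← map_natCast (Ideal.Quotient.mk (lvl (p := p) ι (n + 1))),
      ← map_mul, Ideal.Quotient.eq, mem_lvl] at he
    simp only [AddSubgroupClass.coe_sub, MulMemClass.coe_mul, SubringClass.coe_natCast] at he
    rwa [hw, ← mul_sub, pow_succ', mul_dvd_mul_iff_left p_ne_zero] at he
  have hwV : w ∈ wittSub ι := by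
    obtain ⟨u, -, hu⟩ := hn 0
    rw [zero_add, pow_one, p_dvd_iff, map_sub, sub_eq_zero] at hu
    show WittVector.constantCoeff w ∈ ι.range
    rw [hu]
    exact u.2
  refine ⟨⟨w, hwV⟩, (mem_cohenRing ι B).2 fun n => ?_, rfl⟩
  obtain ⟨u, hu, hd⟩ := hn n
  rwa [show Ideal.Quotient.mk (lvl ι n) ⟨w, hwV⟩ = Ideal.Quotient.mk (lvl ι n) u by
    rw [Ideal.Quotient.eq, mem_lvl]
    exact hd]

theorem exists_of_pow_mul {c : wittSub (p := p) ι} (hc : c ∈ cohenRing ι B) {j : ℕ} {w : WittVector p L}
    (hw : (c : WittVector p L) = (p : WittVector p L) ^ j * w) : ∃ d ∈ cohenRing (p := p) ι B, (d : WittVector p L) = w := by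
  induction j generalizing c with
  | zero => exact ⟨c, hc, by simpa using hw⟩
  | succ j ih =>
    obtain ⟨d, hd, hdw⟩ := exists_of_p_mul ι hspan hB hc (w := (p : WittVector p L) ^ j * w)
      (by rw [hw, pow_succ', mul_assoc])
    exact ih hd hdw

omit hB in
theorem isUnit_of_res_ne_zero (c : cohenRing (p := p) ι B) (hc : resV ι (c : wittSub (p := p) ι) ≠ 0) :
    IsUnit c := by
  have h0 : WittVector.constantCoeff ((c : wittSub (p := p) ι) : WittVector p L) ≠ 0 := by
    rw [← iota_resV]
    exact (map_ne_zero ι).2 hc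
  obtain ⟨w, hw⟩ := (WittVector.isUnit_of_coeff_zero_ne_zero _ h0).exists_right_inv
  have hwV : w ∈ wittSub ι := by
    refine ⟨(resV ι (c : wittSub (p := p) ι))⁻¹, ?_⟩
    rw [map_inv₀, iota_resV]
    refine inv_eq_of_mul_eq_one_right ?_
    rw [← map_mul, hw, map_one]
  have hmem : (⟨w, hwV⟩ : wittSub (p := p) ι) ∈ cohenRing ι B := by
    refine (mem_cohenRing ι B).2 fun n => ?_
    set g := Ideal.Quotient.mk (lvl ι n) (c : wittSub (p := p) ι) with hg
    set v := Ideal.Quotient.mk (lvl ι n) ⟨w, hwV⟩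
    have hgv : g * v = 1 := by
      rw [hg, ← map_mul, ← map_one (Ideal.Quotient.mk (lvl (p := p) ι n))]
      exact congrArg _ (Subtype.ext hw)
    obtain ⟨u, hu, hres⟩ := exists_mem_gen (n := n) (resP_surjective (p := p) ι n)
      (β := betaP ι n) (B := B) (fun b _ => resV_teichV ι b) hspan (resV ι (c : wittSub (p := p) ι))⁻¹
    have hd : (1 - g * u) ^ (n + 1) = 0 := by
      rw [← Ideal.mem_bot, ← resP_ker_pow ι n]
      refine Ideal.pow_mem_pow ?_ _
      rw [RingHom.mem_ker, map_sub, map_mul, map_one, hres, hg, resP_mk, mul_inv_cancel₀ hc,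
        sub_self]
    have hsum := mul_neg_geom_sum (1 - g * u) (n + 1)
    rw [hd, sub_zero, sub_sub_cancel] at hsum
    have hv : v = u * ∑ i ∈ Finset.range (n + 1), (1 - g * u) ^ i := by
      calc v = v * (g * u * ∑ i ∈ Finset.range (n + 1), (1 - g * u) ^ i) := by
            rw [hsum, mul_one]
        _ = (g * v) * (u * ∑ i ∈ Finset.range (n + 1), (1 - g * u) ^ i) := by ring
        _ = _ := by rw [hgv, one_mul]
    have hgm := (mem_cohenRing ι B).1 c.2 n
    rw [hv]
    exact Subring.mul_mem _ hu (Subring.sum_mem _ fun i _ =>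
      Subring.pow_mem _ (Subring.sub_mem _ (Subring.one_mem _) (Subring.mul_mem _ hgm hu)) _)
  exact IsUnit.of_mul_eq_one ⟨_, hmem⟩ (Subtype.ext (Subtype.ext hw))

end Levels

section Main

variable (B)

/-- The residue map of the Cohen ring. -/
def resC : cohenRing (p := p) ι B →+* k := (resV ι).comp (cohenRing ι B).subtype

variable {B} (hspan : ∀ x, x ∈ pClosure p B) (hB : PFree p B)
include hspan

theorem resC_surjective : Function.Surjective (resC (p := p) ι B) := fun a => by
  obtain ⟨c, hc, h⟩ := exists_res_eq (p := p) ι hspan a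
  exact ⟨⟨c, hc⟩, h⟩

theorem isLocalRing_cohen : IsLocalRing (cohenRing (p := p) ι B) := by
  have hiff : ∀ c : cohenRing (p := p) ι B, c ∈ nonunits _ ↔ resC ι B c = 0 := fun c => by
    refine ⟨fun h => by_contra fun h' => h (isUnit_of_res_ne_zero ι hspan c h'), fun h hu => ?_⟩
    exact (hu.map (resC ι B)).ne_zero h
  refine IsLocalRing.of_nonunits_add fun a b ha hb => ?_
  rw [hiff] at ha hb ⊢
  rw [map_add, ha, hb, add_zero]

include hB

theorem exists_eq_p_mul {c : cohenRing (p := p) ι B} (hc : resC ι B c = 0) :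
    ∃ d, c = (p : cohenRing (p := p) ι B) * d := by
  obtain ⟨w, hw⟩ : (p : WittVector p L) ∣ ((c : wittSub (p := p) ι) : WittVector p L) := (resV_eq_zero_iff ι).1 hc
  obtain ⟨d, hd, hdw⟩ := exists_of_p_mul ι hspan hB c.2 hw
  exact ⟨⟨d, hd⟩, Subtype.ext (Subtype.ext (by simp [hw, hdw]))⟩

theorem dvd_iff {j : ℕ} {c : cohenRing (p := p) ι B} :
    (p : cohenRing (p := p) ι B) ^ j ∣ c ↔ (p : WittVector p L) ^ j ∣ ((c : wittSub (p := p) ι) : WittVector p L) := by
  refine ⟨fun ⟨d, hd⟩ => ⟨((d : wittSub (p := p) ι) : WittVector p L), by simp [hd]⟩, fun ⟨w, hw⟩ => ?_⟩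
  obtain ⟨d, hd, hdw⟩ := exists_of_pow_mul ι hspan hB c.2 hw
  exact ⟨⟨d, hd⟩, Subtype.ext (Subtype.ext (by simp [hw, hdw]))⟩

theorem isNoetherianRing_cohen : IsNoetherianRing (cohenRing (p := p) ι B) := by
  classical
  refine (isNoetherianRing_iff_ideal_fg _).2 fun I => ?_
  by_cases hI : I = ⊥
  · exact hI ▸ Submodule.fg_bot
  have key : ∀ c : cohenRing (p := p) ι B, c ≠ 0 →
      ∃ j u, IsUnit u ∧ c = (p : cohenRing (p := p) ι B) ^ j * u := by
    intro c hc
    obtain ⟨j, u, hu⟩ := WittVector.exists_eq_pow_p_mul' ((c : wittSub (p := p) ι) : WittVector p L)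
      fun h => hc (Subtype.ext (Subtype.ext (by simpa using h)))
    obtain ⟨d, hd, hdw⟩ := exists_of_pow_mul ι hspan hB c.2 hu
    refine ⟨j, ⟨d, hd⟩, isUnit_of_res_ne_zero ι hspan _ fun h => ?_,
      Subtype.ext (Subtype.ext (by simp [hu, hdw]))⟩
    have h2 := (resV_eq_zero_iff ι).1 h
    simp only [hdw] at h2
    exact (WittVector.irreducible p (k := L)).not_isUnit (isUnit_of_dvd_unit h2 u.isUnit)
  obtain ⟨c, hcI, hc⟩ := Submodule.exists_mem_ne_zero_of_ne_bot hI
  have hex : ∃ j, (p : cohenRing (p := p) ι B) ^ j ∈ I := by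
    obtain ⟨j, u, hu, rfl⟩ := key c hc
    exact ⟨j, (Ideal.mul_unit_mem_iff_mem I hu).1 hcI⟩
  refine ⟨{(p : cohenRing (p := p) ι B) ^ Nat.find hex}, le_antisymm ?_ fun x hx => ?_⟩
  · simpa using Nat.find_spec hex
  · rw [Finset.coe_singleton, Ideal.mem_span_singleton]
    by_cases hx0 : x = 0
    · simp [hx0]
    obtain ⟨j, u, hu, rfl⟩ := key x hx0
    exact dvd_mul_of_dvd_left (pow_dvd_pow _
      (Nat.find_min' hex ((Ideal.mul_unit_mem_iff_mem I hu).1 hx))) _

theorem isAdicComplete_cohen :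
    IsAdicComplete (Ideal.span {(p : cohenRing (p := p) ι B)}) (cohenRing (p := p) ι B) := by
  refine { haus' := fun x hx => ?_, prec' := fun f hf => ?_ }
  · refine Subtype.ext (Subtype.ext ?_)
    refine IsHausdorff.haus' (I := Ideal.span {(p : WittVector p L)}) _ fun n => ?_
    have h := hx n
    rw [SModEq.zero, smul_eq_mul, Ideal.mul_top, Ideal.span_singleton_pow,
      Ideal.mem_span_singleton] at h ⊢
    exact (dvd_iff ι hspan hB).1 h
  · have hf' : ∀ {i n}, i ≤ n → (p : WittVector p L) ^ i ∣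
        (((f i : cohenRing (p := p) ι B) : wittSub (p := p) ι) : WittVector p L) - ((f n : wittSub (p := p) ι) : WittVector p L) := fun {i n} hin => by
      have h := hf hin
      rw [SModEq.sub_mem, smul_eq_mul, Ideal.mul_top, Ideal.span_singleton_pow,
        Ideal.mem_span_singleton, dvd_iff ι hspan hB] at h
      simpa using h
    obtain ⟨w, hw⟩ := IsPrecomplete.prec (I := Ideal.span {(p : WittVector p L)}) (M := WittVector p L) inferInstance
      (f := fun n => (((f n : cohenRing (p := p) ι B) : wittSub (p := p) ι) : WittVector p L)) fun {i n} hin => by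
        rw [SModEq.sub_mem, smul_eq_mul, Ideal.mul_top, Ideal.span_singleton_pow,
          Ideal.mem_span_singleton]
        exact hf' hin
    have hwn : ∀ n, (p : WittVector p L) ^ n ∣ ((f n : wittSub (p := p) ι) : WittVector p L) - w := fun n => by
      have h := hw n
      rwa [SModEq.sub_mem, smul_eq_mul, Ideal.mul_top, Ideal.span_singleton_pow,
        Ideal.mem_span_singleton] at h
    have hwV : w ∈ wittSub ι := by
      show WittVector.constantCoeff w ∈ ι.range
      have h := hwn 1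
      rw [pow_one, p_dvd_iff, map_sub, sub_eq_zero] at h
      rw [← h]
      exact (f 1 : wittSub (p := p) ι).2
    have hmem : (⟨w, hwV⟩ : wittSub (p := p) ι) ∈ cohenRing ι B := (mem_cohenRing ι B).2 fun n => by
      rw [show Ideal.Quotient.mk (lvl ι n) ⟨w, hwV⟩ =
          Ideal.Quotient.mk (lvl ι n) (f (n + 1) : wittSub (p := p) ι) by
        rw [Ideal.Quotient.eq, mem_lvl, ← dvd_neg]
        simpa using hwn (n + 1)]
      exact (mem_cohenRing ι B).1 (f (n + 1)).2 n
    refine ⟨⟨_, hmem⟩, fun n => ?_⟩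
    rw [SModEq.sub_mem, smul_eq_mul, Ideal.mul_top, Ideal.span_singleton_pow,
      Ideal.mem_span_singleton, dvd_iff ι hspan hB]
    simpa using hwn n

/-- Homomorphisms with the same residues and marked values agree into a thickening. -/
theorem hom_ext_cohen {R K : Type*} [CommRing R] [CommRing K] (q : R →+* K) (hK : (p : K) = 0)
    {n : ℕ} (hR : RingHom.ker q ^ (n + 1) = ⊥) {g g' : cohenRing (p := p) ι B →+* R}
    (hres : q.comp g = q.comp g')
    (hg : ∀ b (hb : b ∈ B), g ⟨teichV ι b, teichV_mem ι B hb⟩ = g' ⟨teichV ι b, teichV_mem ι B hb⟩) :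
    g = g' := by
  have hpq : (p : R) ∈ RingHom.ker q := by rw [RingHom.mem_ker, map_natCast, hK]
  have hle : lvlRing (p := p) ι B n ≤
      (g.eqLocus g').map ((Ideal.Quotient.mk (lvl ι n)).comp (cohenRing ι B).subtype) := by
    refine Subring.closure_le.2 ?_
    rintro z (⟨y, rfl⟩ | ⟨b, hb, rfl⟩)
    · obtain ⟨c, hc⟩ := resC_surjective (p := p) ι hspan (resP ι n y)
      refine ⟨c ^ p ^ n, ?_, ?_⟩
      · show g (c ^ p ^ n) = g' (c ^ p ^ n)
        rw [map_pow, map_pow, ← sub_eq_zero, ← Ideal.mem_bot, ← hR]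
        refine pow_sub_pow_mem hpq ?_ n
        rw [RingHom.mem_ker, map_sub, sub_eq_zero]
        exact RingHom.congr_fun hres c
      · rw [map_pow]
        exact pow_eq (resP_ker_pow ι n) hc
    · exact ⟨⟨teichV ι b, teichV_mem ι B hb⟩, hg b hb, rfl⟩
  refine RingHom.ext fun c => ?_
  obtain ⟨d, hd, hdc⟩ := hle ((mem_cohenRing ι B).1 c.2 n)
  have hdvd : (p : cohenRing (p := p) ι B) ^ (n + 1) ∣ c - d := by
    rw [dvd_iff ι hspan hB]
    have h := (Ideal.Quotient.eq).1 hdc.symm
    simpa [mem_lvl] using h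
  obtain ⟨e, he⟩ := hdvd
  have h0 : (p : R) ^ (n + 1) = 0 := by
    rw [← Ideal.mem_bot, ← hR]
    exact Ideal.pow_mem_pow hpq _
  have hc : c = d + (p : cohenRing (p := p) ι B) ^ (n + 1) * e := by rw [← he]; ring
  rw [hc, map_add, map_add, map_mul, map_mul, map_pow, map_pow, map_natCast, map_natCast, h0,
    zero_mul, zero_mul, show g d = g' d from hd]

omit hspan hB [CharP k p] [CharP L p] [PerfectRing L p] in
/-- The map to the truncated ring. -/
theorem mk_mem_lvlRing (n : ℕ) (c : cohenRing (p := p) ι B) :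
    Ideal.Quotient.mk (lvl ι n) (c : wittSub (p := p) ι) ∈ lvlRing ι B n :=
  (mem_cohenRing ι B).1 c.2 n

/-- The map out of the Cohen ring with given residues and given values on the marked lifts. -/
theorem exists_hom_cohen (A : Type*) [CommRing A] [IsLocalRing A]
    [IsAdicComplete (maximalIdeal A) A] (e : k →+* ResidueField A) (γ : k → A)
    (hγ : ∀ b ∈ B, residue A (γ b) = e b) :
    ∃ f : cohenRing (p := p) ι B →+* A, (∀ c, residue A (f c) = e (resC ι B c)) ∧
      ∀ b (hb : b ∈ B), f ⟨teichV ι b, teichV_mem ι B hb⟩ = γ b := by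
  set m := maximalIdeal A
  let q : (n : ℕ) → A ⧸ m ^ (n + 1) →+* ResidueField A := fun n =>
    Ideal.Quotient.lift _ (residue A) fun a ha =>
      (residue_eq_zero_iff a).2 (Ideal.pow_le_self n.succ_ne_zero ha)
  have hpK : (p : ResidueField A) = 0 := by
    rw [← map_natCast e, CharP.cast_eq_zero k p, map_zero]
  have hqker : ∀ n, RingHom.ker (q n) ^ (n + 1) = ⊥ := fun n => by
    have h : RingHom.ker (q n) = (RingHom.ker (residue A)).map (Ideal.Quotient.mk (m ^ (n + 1))) :=
      Ideal.ker_quotient_lift _ _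
    rw [h, ker_residue, ← Ideal.map_pow, Ideal.map_quotient_self]
  have hex : ∀ n, ∃ φ : cohenRing (p := p) ι B →+* A ⧸ m ^ (n + 1),
      (∀ c, q n (φ c) = e (resC ι B c)) ∧
      ∀ b (hb : b ∈ B), φ ⟨teichV ι b, teichV_mem ι B hb⟩ = Ideal.Quotient.mk _ (γ b) := by
    intro n
    obtain ⟨φ, h1, h2⟩ := exists_hom (resP_surjective (p := p) ι n) (resP_ker_pow ι n)
      (β := betaP ι n) (fun b _ => resV_teichV ι b) hB hspan
      (fun i hi x z h => resP_regular ι hi x z h) (q n) e
      (fun a => by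
        obtain ⟨r, hr⟩ := residue_surjective (e a)
        exact ⟨Ideal.Quotient.mk _ r, hr⟩)
      (hqker n) (fun b => Ideal.Quotient.mk _ (γ b)) hγ
    refine ⟨φ.comp (((Ideal.Quotient.mk (lvl ι n)).comp (cohenRing ι B).subtype).codRestrict _
      (mk_mem_lvlRing ι n)), fun c => ?_, fun b hb => ?_⟩
    · exact h1 _
    · exact h2 b hb
  choose φ hφ₁ hφ₂ using hex
  let F : (n : ℕ) → cohenRing (p := p) ι B →+* A ⧸ m ^ n := fun n =>
    (Ideal.Quotient.factorPow m n.le_succ).comp (φ n)
  have hF : ∀ {i n : ℕ} (h : i ≤ n), (Ideal.Quotient.factorPow m h).comp (F n) = F i := by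
    intro i n h
    rcases i with _ | j
    · have : Subsingleton (A ⧸ m ^ 0) := Ideal.Quotient.subsingleton_iff.2 (by simp)
      exact RingHom.ext fun c => Subsingleton.elim _ _
    refine hom_ext_cohen ι hspan hB (q j) hpK (hqker j) (RingHom.ext fun c => ?_) fun b hb => ?_
    · obtain ⟨a, ha⟩ := Ideal.Quotient.mk_surjective (φ n c)
      obtain ⟨a', ha'⟩ := Ideal.Quotient.mk_surjective (φ (j + 1) c)
      simp only [F, RingHom.comp_apply, ← ha, ← ha', Ideal.Quotient.factor_mk]
      show residue A a = residue A a'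
      have h1 := hφ₁ n c
      have h2 := hφ₁ (j + 1) c
      rw [← ha] at h1
      rw [← ha'] at h2
      exact h1.trans h2.symm
    · simp only [F, RingHom.comp_apply, hφ₂ _ b hb, factorPow_mk]
  refine ⟨IsAdicComplete.liftRingHom m F hF, fun c => ?_, fun b hb => ?_⟩
  · have h := IsAdicComplete.mk_liftRingHom m F hF 1 c
    obtain ⟨a, ha⟩ := Ideal.Quotient.mk_surjective (φ 1 c)
    simp only [F, RingHom.comp_apply, ← ha, Ideal.Quotient.factor_mk] at h
    rw [Ideal.Quotient.eq, pow_one] at h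
    have h1 := hφ₁ 1 c
    rw [← ha] at h1
    rw [← h1]
    show residue A _ = residue A a
    rw [← sub_eq_zero, ← map_sub, residue_eq_zero_iff]
    exact h
  · refine sub_eq_zero.1 (IsHausdorff.haus' (I := m) _ fun n => ?_)
    rw [SModEq.zero, smul_eq_mul, Ideal.mul_top, ← Ideal.Quotient.eq,
      IsAdicComplete.mk_liftRingHom]
    simp only [F, RingHom.comp_apply, hφ₂ _ b hb, factorPow_mk]

/-- The lifting property. -/
theorem exists_lift_cohen (W T : Type*) [CommRing W] [IsLocalRing W]
    [IsAdicComplete (maximalIdeal W) W] [CommRing T] [IsLocalRing T]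
    [IsAdicComplete (maximalIdeal T) T] (π : W →+* T)
    (f : cohenRing (p := p) ι B →+* T) (hπ : Function.Surjective π)
    (hf : ∀ c, resC ι B c = 0 → ¬ IsUnit (f c)) :
    ∃ f' : cohenRing (p := p) ι B →+* W, (∀ c, resC ι B c = 0 → ¬ IsUnit (f' c)) ∧
      π.comp f' = f := by
  have : IsLocalHom π := .of_surjective π hπ
  let E := RingEquiv.ofBijective (ResidueField.map π) ⟨(ResidueField.map π).injective, fun x => by
    obtain ⟨t, rfl⟩ := residue_surjective x
    obtain ⟨w, rfl⟩ := hπ t
    exact ⟨residue W w, rfl⟩⟩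
  have hker : RingHom.ker (resC ι B) ≤ RingHom.ker ((residue T).comp f) := fun c hc => by
    rw [RingHom.mem_ker, RingHom.comp_apply, residue_eq_zero_iff]
    exact hf c hc
  let eT : k →+* ResidueField T :=
    (Ideal.Quotient.lift _ ((residue T).comp f) hker).comp
      (RingHom.quotientKerEquivOfSurjective (resC_surjective (p := p) ι hspan)).symm.toRingHom
  have heT : ∀ c, eT (resC ι B c) = residue T (f c) := fun c => by
    simp only [eT, RingHom.comp_apply, RingEquiv.toRingHom_eq_coe, RingHom.coe_coe]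
    rw [show (RingHom.quotientKerEquivOfSurjective (resC_surjective (p := p) ι hspan)).symm
        (resC ι B c) = Ideal.Quotient.mk _ c from
      (RingEquiv.symm_apply_eq _).2 rfl]
    rfl
  classical
  let γ : k → W := fun b => if hb : b ∈ B then
    Function.surjInv hπ (f ⟨teichV ι b, teichV_mem ι B hb⟩) else 0
  obtain ⟨f', h1, h2⟩ := exists_hom_cohen ι hspan hB W (E.symm.toRingHom.comp eT) γ fun b hb => by
    simp only [γ, dif_pos hb, RingHom.comp_apply, RingEquiv.toRingHom_eq_coe, RingHom.coe_coe]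
    refine ((RingEquiv.symm_apply_eq E).2 ?_).symm
    show eT b = residue T (π (Function.surjInv hπ (f ⟨teichV ι b, teichV_mem ι B hb⟩)))
    rw [Function.surjInv_eq hπ, ← heT]
    exact congrArg eT (resV_teichV ι b).symm
  refine ⟨f', fun c hc => ?_, ?_⟩
  · rw [← mem_nonunits_iff, ← mem_maximalIdeal, ← residue_eq_zero_iff, h1, hc, map_zero]
  have hres : ∀ c, residue T (π (f' c)) = residue T (f c) := fun c => by
    rw [← ResidueField.map_residue π, h1]
    exact (E.apply_symm_apply _).trans (heT c)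
  refine RingHom.ext fun c => sub_eq_zero.1 (IsHausdorff.haus' (I := maximalIdeal T) _ fun n => ?_)
  rw [SModEq.zero, smul_eq_mul, Ideal.mul_top]
  refine Ideal.pow_le_pow_right n.le_succ ?_
  rw [← Ideal.Quotient.eq]
  let q : T ⧸ maximalIdeal T ^ (n + 1) →+* ResidueField T :=
    Ideal.Quotient.lift _ (residue T) fun a ha =>
      (residue_eq_zero_iff a).2 (Ideal.pow_le_self n.succ_ne_zero ha)
  have hqker : RingHom.ker q ^ (n + 1) = ⊥ := by
    have h : RingHom.ker q =
        (RingHom.ker (residue T)).map (Ideal.Quotient.mk (maximalIdeal T ^ (n + 1))) :=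
      Ideal.ker_quotient_lift _ _
    rw [h, ker_residue, ← Ideal.map_pow, Ideal.map_quotient_self]
  have hpT : (p : ResidueField T) = 0 := by
    rw [← map_natCast eT, CharP.cast_eq_zero k p, map_zero]
  refine RingHom.congr_fun (hom_ext_cohen ι hspan hB q hpT hqker
    (g := (Ideal.Quotient.mk _).comp (π.comp f')) (g' := (Ideal.Quotient.mk _).comp f)
    (RingHom.ext fun d => hres d) fun b hb => ?_) c
  simp only [RingHom.comp_apply, h2 b hb, γ, dif_pos hb, Function.surjInv_eq hπ]

end Main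

/-- Cohen rings exist. -/
theorem cohenStatement : CohenStatement.{u} := by
  intro p _ k _ _
  let L := AlgebraicClosure k
  have : CharP L p := charP_of_injective_algebraMap (algebraMap k L).injective p
  have : PerfectRing L p := PerfectField.toPerfectRing p
  let ι := algebraMap k L
  obtain ⟨B, hB, hspan⟩ := exists_pFree_spanning (k := k) (p := p)
  let C := cohenRing (p := p) ι B
  have : IsLocalRing C := isLocalRing_cohen ι hspan
  have hmax : maximalIdeal C = Ideal.span {(p : C)} := by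
    refine le_antisymm (fun c hc => ?_) ?_
    · obtain ⟨d, rfl⟩ := exists_eq_p_mul ι hspan hB (c := c)
        (by_contra fun h => hc (isUnit_of_res_ne_zero ι hspan c h))
      exact Ideal.mul_mem_right _ _ (Ideal.mem_span_singleton_self _)
    · rw [Ideal.span_singleton_le_iff_mem, mem_maximalIdeal, mem_nonunits_iff]
      intro h
      have := (h.map (resC ι B)).ne_zero
      simp at this
  have hres : ∀ c, resC ι B c = 0 ↔ c ∈ maximalIdeal C := fun c => by
    rw [mem_maximalIdeal, mem_nonunits_iff]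
    exact ⟨fun h hu => (hu.map (resC ι B)).ne_zero h,
      fun h => by_contra fun h' => h (isUnit_of_res_ne_zero ι hspan c h')⟩
  have hker : maximalIdeal C = RingHom.ker (resC ι B) := Ideal.ext fun c => (hres c).symm
  let eqk : ResidueField C ≃+* k := (Ideal.quotEquivOfEq hker).trans
    (RingHom.quotientKerEquivOfSurjective (resC_surjective (p := p) ι hspan))
  have heqk : ∀ c, eqk (residue C c) = resC ι B c := fun c => rfl
  refine ⟨C, inferInstance, this, ?_, ⟨eqk⟩⟩
  refine
    { max_eq := hmax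
      noetherian := isNoetherianRing_cohen ι hspan hB
      complete := hmax ▸ isAdicComplete_cohen ι hspan hB
      p_regular := ?_
      lift := ?_
      exists_hom := ?_ }
  · rw [mem_nonZeroDivisors_iff_ne_zero]
    intro h
    refine p_ne_zero (p := p) (L := L) ?_
    simpa using congrArg (fun c : C => ((c : wittSub (p := p) ι) : WittVector p L)) h
  · intro W T _ _ _ _ _ _ π f hπ hf
    obtain ⟨f', hl, he⟩ := exists_lift_cohen ι hspan hB W T π f hπ fun c hc hu => by
      have := (hres c).1 hc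
      exact this (IsLocalHom.map_nonunit c hu)
    exact ⟨f', ⟨fun c hc => by_contra fun h => hl c ((hres c).2 h) hc⟩, he⟩
  · intro A _ _ _ e
    obtain ⟨f, h1, -⟩ := exists_hom_cohen ι hspan hB A (e.comp eqk.symm.toRingHom)
      (fun b => Function.surjInv residue_surjective (e (eqk.symm b)))
      fun b _ => Function.surjInv_eq _ _
    have h3 : ∀ c, residue A (f c) = e (residue C c) := fun c => by
      rw [h1, ← heqk]
      simp
    refine ⟨f, ⟨fun c hc => by_contra fun h => ?_⟩, h3⟩
    have h4 := h3 c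
    rw [(residue_eq_zero_iff c).2 h, map_zero, residue_eq_zero_iff] at h4
    exact h4 hc

end Vale.Agent.P202.Mixed.Cohen
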