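import Vale.Agent.P202.Reduce.CoeffField

/-!
# P202 mixed characteristic: thickenings of a field of characteristic `p`

A thickening of order `n` of a field `k` is a ring `P` with a map `res` onto `k` whose kernel `J`
has `J ^ (n + 1) = 0`.  The subring generated by the `p ^ n`-th powers and by lifts of a free
generating set `B` over the `p`-th powers is the truncated Cohen ring as soon as `p` is regular:
it maps uniquely to every thickening with marked lifts of `B`.
-/

noncomputable section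

namespace Vale.Agent.P202.Mixed.Cohen

open IsLocalRing

variable {p : ℕ} [Fact p.Prime]

omit [Fact p.Prime] in
/-- Congruent elements have more congruent `p ^ m`-th powers. -/
theorem pow_sub_pow_mem {P : Type*} [CommRing P] {J : Ideal P} (hp : (p : P) ∈ J) {x y : P}
    (h : x - y ∈ J) : ∀ m, x ^ p ^ m - y ^ p ^ m ∈ J ^ (m + 1)
  | 0 => by simpa using h
  | m + 1 => by
    have ih := pow_sub_pow_mem hp h m
    rw [pow_succ p, pow_mul, pow_mul, ← geom_sum₂_mul, pow_succ' J]
    refine Ideal.mul_mem_mul ?_ ih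
    have he : Ideal.Quotient.mk J (x ^ p ^ m) = Ideal.Quotient.mk J (y ^ p ^ m) := by
      rw [Ideal.Quotient.eq]
      exact Ideal.pow_le_self (by omega) ih
    rw [← Ideal.Quotient.eq_zero_iff_mem, map_sum]
    simp only [map_mul, map_pow] at he ⊢
    rw [he]
    calc ∑ i ∈ Finset.range p, ((Ideal.Quotient.mk J y) ^ p ^ m) ^ i *
          ((Ideal.Quotient.mk J y) ^ p ^ m) ^ (p - 1 - i)
        = ∑ _i ∈ Finset.range p, ((Ideal.Quotient.mk J y) ^ p ^ m) ^ (p - 1) :=
          Finset.sum_congr rfl fun i hi => by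
            rw [← pow_add, show i + (p - 1 - i) = p - 1 by
              have := Finset.mem_range.1 hi
              omega]
      _ = 0 := by
        rw [Finset.sum_const, Finset.card_range, nsmul_eq_mul, ← map_natCast (Ideal.Quotient.mk J),
          Ideal.Quotient.eq_zero_iff_mem.2 hp, zero_mul]

variable {k : Type*} [Field k] [CharP k p] {B : Set k}

/-- A subring with the `p ^ n`-th powers and a generating set is everything. -/
theorem eq_top_of_pow_mem (hspan : ∀ x, x ∈ pClosure p B) {F : Subring k} :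
    ∀ n, (∀ x : k, x ^ p ^ n ∈ F) → B ⊆ F → ∀ a, a ∈ F
  | 0, hF, _, a => by simpa using hF a
  | n + 1, hF, hB, a => by
    refine eq_top_of_pow_mem hspan n (fun x => ?_) hB a
    have hle : Subring.closure (Set.range (frobenius k p) ∪ B) ≤
        F.comap (iterateFrobenius k p n) := by
      refine Subring.closure_le.2 ?_
      rintro y (⟨z, rfl⟩ | hy)
      · simpa [iterateFrobenius_def, frobenius_def, ← pow_mul, ← pow_succ'] using hF z
      · simpa [iterateFrobenius_def] using pow_mem (hB hy) (p ^ n)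
    simpa [iterateFrobenius_def] using hle (mem_pClosure_iff.1 (hspan x))

variable {P : Type*} [CommRing P] {res : P →+* k} {β : k → P} {n : ℕ}

variable (p B) in
/-- The subring generated by the `p ^ n`-th powers and the marked lifts. -/
def gen (β : k → P) (n : ℕ) : Subring P :=
  Subring.closure (Set.range (fun x : P => x ^ p ^ n) ∪ β '' B)

omit [Fact p.Prime] [Field k] [CharP k p] in
theorem pow_mem_gen (x : P) : x ^ p ^ n ∈ gen p B β n :=
  Subring.subset_closure (Or.inl ⟨x, rfl⟩)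

omit [Fact p.Prime] [Field k] [CharP k p] in
theorem beta_mem_gen {b : k} (hb : b ∈ B) : β b ∈ gen p B β n :=
  Subring.subset_closure (Or.inr ⟨b, hb, rfl⟩)

omit [Fact p.Prime] in
theorem cast_mem_ker (res : P →+* k) : (p : P) ∈ RingHom.ker res := by
  rw [RingHom.mem_ker, map_natCast, CharP.cast_eq_zero k p]

/-- `p ^ i * x ^ (p ^ m)` only depends on the residue of `x` when `i + m = n`. -/
theorem mul_pow_eq (hJ : RingHom.ker res ^ (n + 1) = ⊥) {i m : ℕ} (him : i + m = n) {x y : P}
    (h : res x = res y) : (p : P) ^ i * x ^ p ^ m = (p : P) ^ i * y ^ p ^ m := by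
  rw [← sub_eq_zero, ← mul_sub, ← Ideal.mem_bot, ← hJ, ← him, add_assoc, pow_add]
  exact Ideal.mul_mem_mul (Ideal.pow_mem_pow (cast_mem_ker res) i)
    (pow_sub_pow_mem (cast_mem_ker res) (by rw [RingHom.mem_ker, map_sub, h, sub_self]) m)

theorem pow_eq (hJ : RingHom.ker res ^ (n + 1) = ⊥) {x y : P}
    (h : res x = res y) : x ^ p ^ n = y ^ p ^ n := by
  simpa using mul_pow_eq (p := p) hJ (zero_add n) h

theorem exists_mem_gen (hres : Function.Surjective res) (hβ : ∀ b ∈ B, res (β b) = b)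
    (hspan : ∀ x, x ∈ pClosure p B) (a : k) : ∃ x ∈ gen p B β n, res x = a := by
  refine eq_top_of_pow_mem hspan (F := (gen p B β n).map res) n (fun x => ?_) (fun b hb => ?_) a
  · obtain ⟨y, rfl⟩ := hres x
    exact ⟨_, pow_mem_gen y, map_pow _ _ _⟩
  · exact ⟨_, beta_mem_gen hb, hβ b hb⟩

/-- The main lemma: in the generated subring the kernel of the residue map is generated by `p`,
also after multiplying by powers of `p`. -/
theorem exists_pow_mul_eq (hres : Function.Surjective res) (hJ : RingHom.ker res ^ (n + 1) = ⊥)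
    (hβ : ∀ b ∈ B, res (β b) = b) (hB : PFree p B) (hspan : ∀ x, x ∈ pClosure p B) {i : ℕ}
    (hi : i ≤ n) {x : P} (hx : x ∈ gen p B β n) (hx0 : res x = 0) :
    ∃ z ∈ gen p B β n, (p : P) ^ i * x = (p : P) ^ (i + 1) * z := by
  obtain ⟨m, him⟩ := Nat.exists_eq_add_of_le hi
  set Γ := gen p B β n with hΓ
  let rΓ : Γ →+* k := res.comp Γ.subtype
  have hsurj : Function.Surjective rΓ := fun a => by
    obtain ⟨y, hy, h⟩ := exists_mem_gen (n := n) hres hβ hspan a
    exact ⟨⟨y, hy⟩, h⟩
  let I : Ideal Γ := Ideal.span ({(p : Γ)} ∪ {z | ∃ y : Γ, rΓ y = 0 ∧ z = y ^ p ^ m})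
  have hIle : I ≤ RingHom.ker rΓ := Ideal.span_le.2 (by
    rintro z (rfl | ⟨y, hy, rfl⟩)
    · simp [RingHom.mem_ker]
    · simp [RingHom.mem_ker, hy, (Fact.out : p.Prime).ne_zero])
  have : Nontrivial (Γ ⧸ I) := Ideal.Quotient.nontrivial_iff.2
    (fun h => (RingHom.ker_ne_top rΓ) (top_le_iff.1 (h ▸ hIle)))
  have : CharP (Γ ⧸ I) p := by
    refine (CharP.charP_iff_prime_eq_zero (Fact.out : p.Prime)).2 ?_
    rw [← map_natCast (Ideal.Quotient.mk I), Ideal.Quotient.eq_zero_iff_mem]
    exact Ideal.subset_span (Or.inl rfl)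
  set mk := Ideal.Quotient.mk I
  have hwd : ∀ u v : Γ, rΓ u = rΓ v → mk u ^ p ^ m = mk v ^ p ^ m := fun u v h => by
    rw [← sub_eq_zero, ← sub_pow_char_pow (p := p), ← map_sub, ← map_pow,
      Ideal.Quotient.eq_zero_iff_mem]
    exact Ideal.subset_span (Or.inr ⟨u - v, by rw [map_sub, h, sub_self], rfl⟩)
  let t : k →+* Γ ⧸ I :=
    { toFun := fun a => mk (Function.surjInv hsurj a) ^ p ^ m
      map_one' := by rw [hwd _ 1 (by simp [Function.surjInv_eq hsurj]), map_one, one_pow]
      map_mul' := fun a a' => by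
        rw [← mul_pow, ← map_mul]
        exact hwd _ _ (by simp [Function.surjInv_eq hsurj])
      map_zero' := by
        rw [hwd _ 0 (by simp [Function.surjInv_eq hsurj]), map_zero,
          zero_pow (pow_ne_zero _ (Fact.out : p.Prime).ne_zero)]
      map_add' := fun a a' => by
        rw [← add_pow_char_pow (p := p), ← map_add]
        exact hwd _ _ (by simp [Function.surjInv_eq hsurj]) }
  have key : ∀ d ≤ m, ∃ s : k →+* Γ ⧸ I, (∀ u : Γ, s (rΓ u ^ p ^ d) = mk u ^ p ^ m) ∧
      ∀ b (hb : b ∈ B), s b = mk ⟨β b, beta_mem_gen hb⟩ ^ p ^ (m - d) := by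
    intro d
    induction d with
    | zero =>
      intro _
      refine ⟨t, fun u => ?_, fun b hb => ?_⟩
      · rw [pow_zero, pow_one]
        exact hwd _ _ (Function.surjInv_eq hsurj _)
      · exact hwd _ _ ((Function.surjInv_eq hsurj b).trans (hβ b hb).symm)
    | succ d ih =>
      intro hd
      obtain ⟨s, hs₁, hs₂⟩ := ih (by omega)
      classical
      obtain ⟨s', h₁, h₂⟩ := exists_extension hB hspan s
        (fun b => if hb : b ∈ B then mk ⟨β b, beta_mem_gen hb⟩ ^ p ^ (m - (d + 1)) else 0)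
        (fun b hb => by
          rw [dif_pos hb, hs₂ b hb, ← pow_mul, ← pow_succ,
            show m - (d + 1) + 1 = m - d by omega])
      refine ⟨s', fun u => ?_, fun b hb => by rw [h₂ b hb, dif_pos hb]⟩
      rw [pow_succ, pow_mul, h₁, hs₁]
  obtain ⟨s, hs₁, hs₂⟩ := key m le_rfl
  have hle : Γ ≤ ((s.comp rΓ).eqLocus mk).map Γ.subtype := by
    refine (Subring.closure_le).2 ?_
    rintro z (⟨y, rfl⟩ | ⟨b, hb, rfl⟩)
    · obtain ⟨u, hu⟩ := hsurj (res y)
      refine ⟨u ^ p ^ n, ?_, ?_⟩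
      · show s (rΓ (u ^ p ^ n)) = mk (u ^ p ^ n)
        have hn : p ^ n = p ^ i * p ^ m := by rw [him, pow_add]
        rw [hn, pow_mul, map_pow rΓ, hs₁, ← map_pow mk]
      · exact pow_eq hJ hu
    · refine ⟨⟨β b, beta_mem_gen hb⟩, ?_, rfl⟩
      show s (res (β b)) = mk ⟨β b, beta_mem_gen hb⟩
      rw [hβ b hb, hs₂ b hb, Nat.sub_self, pow_zero, pow_one]
  obtain ⟨u, hu, hux⟩ := hle hx
  have hmk : s (rΓ u) = mk u := hu
  rw [show rΓ u = 0 from (congrArg res hux).trans hx0, map_zero] at hmk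
  have hI : I ≤ Submodule.comap (LinearMap.mulLeft Γ ((p : Γ) ^ i)) (Ideal.span {(p : Γ) ^ (i + 1)}) := by
    refine Ideal.span_le.2 ?_
    rintro z (rfl | ⟨y, hy, rfl⟩)
    · exact Ideal.mem_span_singleton.2 (dvd_of_eq (pow_succ _ _))
    · have h0 : (p : P) ^ i * (y : P) ^ p ^ m = (p : P) ^ i * (0 : P) ^ p ^ m :=
        mul_pow_eq hJ him.symm (by rw [map_zero]; exact hy)
      rw [zero_pow (pow_ne_zero _ (Fact.out : p.Prime).ne_zero), mul_zero] at h0
      have h1 : (p : Γ) ^ i * y ^ p ^ m = 0 := Subtype.ext (by simpa using h0)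
      simp [h1]
  obtain ⟨z, hz⟩ := Ideal.mem_span_singleton.1 (hI (Ideal.Quotient.eq_zero_iff_mem.1 hmk.symm))
  refine ⟨z, z.2, ?_⟩
  rw [← hux]
  simpa using congrArg Subtype.val hz

/-- The universal property: a thickening in which `p` is regular maps, on the generated subring,
to every thickening with marked lifts. -/
theorem exists_hom (hres : Function.Surjective res) (hJ : RingHom.ker res ^ (n + 1) = ⊥)
    (hβ : ∀ b ∈ B, res (β b) = b) (hB : PFree p B) (hspan : ∀ x, x ∈ pClosure p B)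
    (hreg : ∀ i ≤ n, ∀ x z : P, (p : P) ^ i * x = (p : P) ^ (i + 1) * z → res x = 0)
    {R K : Type*} [CommRing R] [CommRing K] (q : R →+* K) (e : k →+* K)
    (hq : ∀ a, ∃ r, q r = e a) (hR : RingHom.ker q ^ (n + 1) = ⊥) (γ : k → R)
    (hγ : ∀ b ∈ B, q (γ b) = e b) :
    ∃ φ : gen p B β n →+* R, (∀ x, q (φ x) = e (res x)) ∧
      ∀ b (hb : b ∈ B), φ ⟨β b, beta_mem_gen hb⟩ = γ b := by
  classical
  let X : Subring (P × R) :=
    ((e.comp res).comp (RingHom.fst P R)).eqLocus (q.comp (RingHom.snd P R))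
  let rX : X →+* k := res.comp ((RingHom.fst P R).comp X.subtype)
  have hXs : ∀ x : P, ∃ u : X, (u : P × R).1 = x := fun x => by
    obtain ⟨r, hr⟩ := hq (res x)
    exact ⟨⟨(x, r), hr.symm⟩, rfl⟩
  have hsurj : Function.Surjective rX := fun a => by
    obtain ⟨x, rfl⟩ := hres a
    obtain ⟨u, rfl⟩ := hXs x
    exact ⟨u, rfl⟩
  have hJX : RingHom.ker rX ^ (n + 1) = ⊥ := by
    refine eq_bot_iff.2 fun u hu => ?_
    have h1 : RingHom.ker rX ≤
        (RingHom.ker res).comap ((RingHom.fst P R).comp X.subtype) := fun v hv => hv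
    have h2 : RingHom.ker rX ≤
        (RingHom.ker q).comap ((RingHom.snd P R).comp X.subtype) := fun v hv => by
      have hv2 : e (res (v : P × R).1) = q (v : P × R).2 := v.2
      rw [show res (v : P × R).1 = 0 from hv, map_zero] at hv2
      exact hv2.symm
    have g1 := Ideal.le_comap_pow _ _ (Ideal.pow_right_mono h1 (n + 1) hu)
    have g2 := Ideal.le_comap_pow _ _ (Ideal.pow_right_mono h2 (n + 1) hu)
    rw [hJ, Ideal.mem_comap, Ideal.mem_bot] at g1
    rw [hR, Ideal.mem_comap, Ideal.mem_bot] at g2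
    exact Subtype.ext (Prod.ext g1 g2)
  let βX : k → X := fun b => if hb : b ∈ B then
    ⟨(β b, γ b), show e (res (β b)) = q (γ b) by rw [hβ b hb, hγ b hb]⟩ else 0
  have hβX : ∀ b ∈ B, rX (βX b) = b := fun b hb => by
    simp only [βX, dif_pos hb]
    exact hβ b hb
  let pr : X →+* P := (RingHom.fst P R).comp X.subtype
  let Γ := gen p B βX n
  have himg : Γ.map pr = gen p B β n := by
    simp only [Γ, gen, RingHom.map_closure, Set.image_union, Set.image_image, ← Set.range_comp]
    congr 1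
    refine congrArg₂ _ (Set.ext fun z => ⟨?_, ?_⟩) (Set.image_congr fun b hb => ?_)
    · rintro ⟨u, rfl⟩
      exact ⟨pr u, (map_pow pr u _).symm⟩
    · rintro ⟨x, rfl⟩
      obtain ⟨u, rfl⟩ := hXs x
      exact ⟨u, map_pow pr u _⟩
    · simp [pr, βX, dif_pos hb]
  let π : Γ →+* gen p B β n := (pr.comp Γ.subtype).codRestrict _ fun u => himg.le ⟨u, u.2, rfl⟩
  have hinj : ∀ u ∈ Γ, pr u = 0 → u = 0 := by
    intro u hu h0
    suffices h : ∀ i ≤ n + 1, ∃ z ∈ Γ, u = (p : X) ^ i * z by
      obtain ⟨z, -, rfl⟩ := h (n + 1) le_rfl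
      have : (p : X) ^ (n + 1) = 0 := by
        rw [← Ideal.mem_bot, ← hJX]
        exact Ideal.pow_mem_pow (cast_mem_ker rX) _
      rw [this, zero_mul]
    intro i
    induction i with
    | zero => exact fun _ => ⟨u, hu, by simp⟩
    | succ i ih =>
      intro hi
      obtain ⟨z, hz, rfl⟩ := ih (by omega)
      have hz0 : rX z = 0 := by
        refine hreg i (by omega) (pr z) 0 ?_
        rw [mul_zero, ← h0, map_mul, map_pow, map_natCast]
      obtain ⟨z', hz', h⟩ := exists_pow_mul_eq hsurj hJX hβX hB hspan (by omega : i ≤ n) hz hz0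
      exact ⟨z', hz', h⟩
  have hbij : Function.Bijective π := by
    refine ⟨(injective_iff_map_eq_zero π).2 fun u hu => ?_, fun x => ?_⟩
    · exact Subtype.ext (hinj u u.2 (congrArg Subtype.val hu))
    · obtain ⟨u, hu, h⟩ := himg.ge x.2
      exact ⟨⟨u, hu⟩, Subtype.ext h⟩
  let E := RingEquiv.ofBijective π hbij
  refine ⟨(RingHom.snd P R).comp (X.subtype.comp (Γ.subtype.comp E.symm.toRingHom)),
    fun x => ?_, fun b hb => ?_⟩
  · obtain ⟨u, rfl⟩ := E.surjective x
    simp only [RingHom.comp_apply, RingEquiv.toRingHom_eq_coe, RingHom.coe_coe,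
      RingEquiv.symm_apply_apply]
    exact ((u : X).2).symm
  · have : E.symm ⟨β b, beta_mem_gen hb⟩ = ⟨βX b, beta_mem_gen hb⟩ :=
      (RingEquiv.symm_apply_eq E).2 (Subtype.ext (by
        show β b = pr (βX b)
        simp [pr, βX, dif_pos hb]))
    simp only [RingHom.comp_apply, RingEquiv.toRingHom_eq_coe, RingHom.coe_coe, this]
    simp [βX, dif_pos hb]

end Vale.Agent.P202.Mixed.Cohen
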